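import Mathlib
import Vale.Agent.P355.Seven.Main
import Vale.Agent.P355.Seven.Data.Total

/-!
At most five pairwise mutually unbiased orthonormal bases fit into `ℂ^6`.
-/

open scoped InnerProductSpace

theorem Vale.Agent.Results.P355.FiveBound.result (k : ℕ)
    (B : Fin k → OrthonormalBasis (Fin 6) ℂ (EuclideanSpace ℂ (Fin 6)))
    (hB : ∀ c d, c ≠ d → ∀ i j, ‖⟪B c i, B d j⟫_ℂ‖ ^ 2 = 1 / 6) :
    k ≤ 5 :=
  Vale.Agent.P355.Seven.card_le_five_of_flat_identity Vale.Agent.P355.Seven.Data.feats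
    Vale.Agent.P355.Seven.Data.feats_par Vale.Agent.P355.Seven.Data.feats_wt
    Vale.Agent.P355.Seven.Data.case_identity k B hB
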