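import Mathlib
import Vale.Agent.P355.Faithful

/-!
Symmetries of hypothetical complete sets, and of triples, of mutually unbiased bases in dimension
six.
-/

namespace Vale.Agent.Results.P355.SymmetryRigidity

open Vale.Agent.P355

/-- A symmetry of seven mutually unbiased bases of `ℂ^6` is determined up to a scalar by the
permutation it induces on the bases, and no three mutually unbiased bases of `ℂ^6` are all
stabilised by a non-scalar unitary of prime projective order at least five. -/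
theorem result :
    (∀ B : Fin 7 → Fin 6 → Fin 6 → ℂ, IsMUBSet B →
      ∀ (σ : Equiv.Perm (Fin 7)) (U V : Matrix (Fin 6) (Fin 6) ℂ),
        U ∈ Matrix.unitaryGroup (Fin 6) ℂ → V ∈ Matrix.unitaryGroup (Fin 6) ℂ →
        (∀ b, MapsBasis U (B b) (B (σ b))) → (∀ b, MapsBasis V (B b) (B (σ b))) →
        ∃ t : ℂ, U = t • V) ∧
    (∀ B : Fin 3 → Fin 6 → Fin 6 → ℂ, IsMUBSet B →
      ∀ U : Matrix (Fin 6) (Fin 6) ℂ, U ∈ Matrix.unitaryGroup (Fin 6) ℂ →
        (∀ b, Stabilises U (B b)) → ∀ p : ℕ, p.Prime → 5 ≤ p →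
        (∃ t : ℂ, U ^ p = t • (1 : Matrix (Fin 6) (Fin 6) ℂ)) →
        ∃ t : ℂ, U = t • (1 : Matrix (Fin 6) (Fin 6) ℂ)) :=
  ⟨fun _ hB _ _ _ hU hV mU mV => symmetry_faithful hB hU hV mU mV,
    fun _ hB _ hU hst _ hp h5 hs => no_large_prime hB hU hst hp h5 hs⟩

end Vale.Agent.Results.P355.SymmetryRigidity
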